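import Vale.Agent.P359.Gap.Limit
import Vale.Agent.P359.Gap.Cert.Blocks.Part0
import Vale.Agent.P359.Gap.Cert.Blocks.Part1
import Vale.Agent.P359.Gap.Cert.Blocks.Part2
import Vale.Agent.P359.Gap.Cert.Blocks.Part3
import Vale.Agent.P359.Gap.Cert.Blocks.Part4
import Vale.Agent.P359.Gap.Cert.Blocks.Part5
import Vale.Agent.P359.Gap.Cert.Blocks.Part6
import Vale.Agent.P359.Gap.Cert.Blocks.Part7
import Vale.Agent.P359.Gap.Cert.Blocks.Part8
import Vale.Agent.P359.Gap.Cert.Blocks.Part9
import Vale.Agent.P359.Gap.Cert.Blocks.Part10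
import Vale.Agent.P359.Gap.Cert.Blocks.Part11
import Vale.Agent.P359.Gap.Cert.Blocks.Part12
import Vale.Agent.P359.Gap.Cert.Blocks.Part13
import Vale.Agent.P359.Gap.Cert.Blocks.Part14
import Vale.Agent.P359.Gap.Cert.Blocks.Part15
import Vale.Agent.P359.Gap.Cert.Blocks.Part16
import Vale.Agent.P359.Gap.Cert.Blocks.Part17
import Vale.Agent.P359.Gap.Cert.Blocks.Part18
import Vale.Agent.P359.Gap.Cert.Blocks.Part19

/-!
# P359, gap: the certified blocks of degree at most `70`
-/

open Finset Filter Topology

namespace Vale.Agent.P359.Gap.Cert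

/-- The blocks of the degrees `1..70`. -/
def blkList : List Blk :=
  [ blk1, blk2, blk3, blk4, blk5, blk6, blk7, blk8, blk9, blk10,
    blk11, blk12, blk13, blk14, blk15, blk16, blk17, blk18, blk19, blk20,
    blk21, blk22, blk23, blk24, blk25, blk26, blk27, blk28, blk29, blk30,
    blk31, blk32, blk33, blk34, blk35, blk36, blk37, blk38, blk39, blk40,
    blk41, blk42, blk43, blk44, blk45, blk46, blk47, blk48, blk49, blk50,
    blk51, blk52, blk53, blk54, blk55, blk56, blk57, blk58, blk59, blk60,
    blk61, blk62, blk63, blk64, blk65, blk66, blk67, blk68, blk69, blk70]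

theorem blkList_ok : ∀ B ∈ blkList, B.ok = true := by
  simp only [blkList, List.forall_mem_cons, List.not_mem_nil, false_imp_iff, implies_true, and_true]
  exact ⟨blk1_ok, blk2_ok, blk3_ok, blk4_ok, blk5_ok, blk6_ok, blk7_ok, blk8_ok, blk9_ok, blk10_ok, blk11_ok, blk12_ok, blk13_ok, blk14_ok, blk15_ok, blk16_ok, blk17_ok, blk18_ok, blk19_ok, blk20_ok, blk21_ok, blk22_ok, blk23_ok, blk24_ok, blk25_ok, blk26_ok, blk27_ok, blk28_ok, blk29_ok, blk30_ok, blk31_ok, blk32_ok, blk33_ok, blk34_ok, blk35_ok, blk36_ok, blk37_ok, blk38_ok, blk39_ok, blk40_ok, blk41_ok, blk42_ok, blk43_ok, blk44_ok, blk45_ok, blk46_ok, blk47_ok, blk48_ok, blk49_ok, blk50_ok, blk51_ok, blk52_ok, blk53_ok, blk54_ok, blk55_ok, blk56_ok, blk57_ok, blk58_ok, blk59_ok, blk60_ok, blk61_ok, blk62_ok, blk63_ok, blk64_ok, blk65_ok, blk66_ok, blk67_ok, blk68_ok, blk69_ok, blk70_ok⟩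

theorem blkList_m : blkList.map Blk.m = (List.range 70).map (· + 1) := by decide +kernel

/-- The bound of the block of degree `m`, zero outside `1..70`. -/
def blkS (m : ℕ) : ℚ := if 1 ≤ m ∧ m ≤ 70 then (blkList.map Blk.s).getD (m - 1) 0 else 0

theorem blkS_sum : ((List.range 71).map fun m : ℕ => 3 / 4 * ((m : ℚ) + 2) ^ 2 * blkS m).sum ≤
    2 / 100 := by decide +kernel

theorem blkS_nonneg_all : (List.range 71).all (fun m => decide (0 ≤ blkS m)) = true := by
  decide +kernel

/-- In degree zero there is no antisymmetric highest weight vector. -/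
theorem rangeBound_zero (sq : List Sq) (Q : ℕ) : RangeBound sq Q 0 0 := by
  intro φ _ hW
  set h := fun M x y => toImp φ M ![x, y] with hh
  have h0 : h = fun _ _ _ => 0 := by
    funext M x y
    by_cases hd : M + (x : ℕ) + (y : ℕ) = 0
    · have hxy : x = y := Fin.ext (by omega)
      subst hxy
      have := hW.anti M x x
      linarith
    · exact hW.deg M x y hd
  rw [h0]
  simp [q3, Sq.cross3, Sq.apply3, normSq3]

/-- **The certified blocks.** -/
theorem cert_blocks : ∃ s : ℕ → ℝ, (∀ m, 0 ≤ s m) ∧ (∀ m, 70 < m → s m = 0) ∧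
    (∑ m ∈ range 71, 3 / 4 * ((m : ℝ) + 2) ^ 2 * s m ≤ 2 / 100) ∧
    ∀ᶠ Q : ℕ in atTop, ∀ m ≤ 70, RangeBound certSq Q m (s m) := by
  refine ⟨fun m => (blkS m : ℝ), fun m => ?_, fun m hm => ?_, ?_, ?_⟩
  · by_cases hm : m ≤ 70
    · have := blkS_nonneg_all
      simp only [List.all_eq_true, List.mem_range, decide_eq_true_eq] at this
      exact Rat.cast_nonneg.2 (this m (by omega))
    · simp [blkS, show ¬(1 ≤ m ∧ m ≤ 70) by omega]
  · simp [blkS, show ¬(1 ≤ m ∧ m ≤ 70) by omega]
  · have h2 : ∀ (f : ℕ → ℚ) (n : ℕ), ((List.range n).map f).sum = ∑ m ∈ range n, f m :=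
      fun f n => rfl
    have h := blkS_sum
    rw [h2] at h
    have h' : ((∑ m ∈ range 71, 3 / 4 * ((m : ℚ) + 2) ^ 2 * blkS m : ℚ) : ℝ) ≤
        (((2 / 100 : ℚ)) : ℝ) := Rat.cast_le.2 h
    push_cast at h'
    exact h'
  · have hall : ∀ᶠ Q : ℕ in atTop, ∀ B ∈ blkList, RangeBound certSq Q B.m (B.s : ℝ) := by
      have h1 : ∀ᶠ Q : ℕ in atTop, ∀ i ∈ Finset.range blkList.length, ∀ B, blkList[i]? = some B →
          RangeBound certSq Q B.m (B.s : ℝ) := (Filter.eventually_all_finset (Finset.range blkList.length)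
        ).2
        fun i _ => ?_
      · filter_upwards [h1] with Q hQ B hB
        obtain ⟨i, hi, rfl⟩ := List.getElem_of_mem hB
        exact hQ i (Finset.mem_range.2 hi) _ (List.getElem?_eq_getElem hi)
      · by_cases hi : i < blkList.length
        · filter_upwards [Blk.rangeBound _ (blkList_ok _ (List.getElem_mem hi))] with Q hQ B hB
          rw [List.getElem?_eq_getElem hi, Option.some.injEq] at hB
          exact hB ▸ hQ
        · exact Eventually.of_forall fun Q B hB => by
            rw [List.getElem?_eq_none (l := blkList) (i := i) (by omega)] at hB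
            exact absurd hB (by simp)
    filter_upwards [hall] with Q hQ m hm
    rcases Nat.eq_zero_or_pos m with rfl | hpos
    · simpa [blkS] using rangeBound_zero certSq Q
    · have hlen : blkList.length = 70 := by
        have := congrArg List.length blkList_m
        simpa using this
      have hi : m - 1 < blkList.length := by omega
      have hmi : (blkList[m - 1]).m = m := by
        have := congrArg (fun l => l[m - 1]?) blkList_m
        simp only [List.getElem?_map, List.getElem?_eq_getElem hi,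
          List.getElem?_range (show m - 1 < 70 by omega), Option.map_some,
          Option.some.injEq] at this
        omega
      have hs : blkS m = (blkList[m - 1]).s := by
        simp [blkS, show 1 ≤ m ∧ m ≤ 70 from ⟨hpos, hm⟩, List.getD_eq_getElem?_getD,
          List.getElem?_eq_getElem hi]
      have := hQ _ (List.getElem_mem hi)
      rw [hmi] at this
      simpa only [hs] using this

end Vale.Agent.P359.Gap.Cert
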