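import Vale.Agent.P359.Gap.Cert.Sq
import Vale.Agent.P359.Gap.Planar
import Vale.Agent.P359.Gap.PSD

/-!
# P359, gap: the kernel check of one planar block

A block of degree `m` is the planar limit of `Q ^ m • blockForm` on the index list `J`, as a
matrix. The data repeat the planar overlaps (`U`, `GJ`, `XU`), which are checked against `Planar`;
after scaling by `sc` the matrix is within `1` of `M + K`, and `psdCheck` shows `0 ≤ M`; with
`n < K` this gives strict positivity.
-/

namespace Vale.Agent.P359.Gap.Cert

/-- Planar limit of `gam`, times `Q ^ m`. -/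
def pGam (m : ℕ) : Option ℕ → Option ℕ → ℚ
  | some r, some r' =>
      ((if r = r' then Planar.N r (m - r) else 0) - Planar.G r (m - r) r' (m - r')) / 2
  | some r, none => Planar.p r (m - r)
  | none, some r => Planar.p r (m - r)
  | none, none => 2 * ((m - 1).factorial : ℚ)

/-- The entry of `ctabs` for the shift at position `i` of `NL` and two positions of `RL`. -/
def cTab (i a b : ℕ) : ℚ :=
  ((((ctabs.getD i []).getD a []).getD b 0 : ℤ) : ℚ) / 4503599627370496

/-- Planar limit of the matrix of the cross terms, at positions `a, b` of `RL`. -/
def pX (m a b : ℕ) : ℚ :=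
  let r := RL.getD a 0
  let r' := RL.getD b 0
  if r ≤ m ∧ r' ≤ m then
    ((List.range 9).map fun i =>
      if 0 ≤ (r : ℤ) + NL.getD i 0 ∧ 0 ≤ (r' : ℤ) + NL.getD i 0 then
        cTab i a b *
          Planar.G ((r : ℤ) + NL.getD i 0).toNat (m - r) ((r' : ℤ) + NL.getD i 0).toNat (m - r') /
          (Planar.N r (m - r) * Planar.N r' (m - r'))
      else 0).sum
  else 0

/-- The penalised indices. -/
def penIdx : List (Option ℕ) := [some 0, some 1, some 3, none]

/-- Whether the penalty of an index is in force in degree `m`. -/
def penOn (m : ℕ) : Option ℕ → Bool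
  | some r => decide (r ≤ m)
  | none => decide (m % 2 = 0)

/-- The rows of overlaps in use: the penalised indices, then the channels of the squares. -/
def rowIdx : List (Option ℕ) := penIdx ++ RL.map some

/-- An entry of a table of rationals, zero outside. -/
def qEntry (A : List (List ℚ)) (i j : ℕ) : ℚ := (A.getD i []).getD j 0

/-- Certificate of strict positivity of a rational matrix: scales, shift, `PSD` data. -/
structure PosCert where
  sc : List ℚ
  K : ℤ
  M : List (List ℤ)
  L : List (List ℤ)
  D : List ℤ
  c : ℤ

/-- The data of one degree. `U` has the rows `rowIdx`, `XU` the rows `RL`, `GJ` the rows `J`;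
all have the columns `J`. `gram` is needed only if `J` does not contain the rows in use. -/
structure Blk where
  m : ℕ
  s : ℚ
  J : List (Option ℕ)
  lam : List ℚ
  U : List (List ℚ)
  XU : List (List ℚ)
  GJ : List (List ℚ)
  block : PosCert
  gram : Option PosCert

/-- The check of a certificate against the entries `e` of an `n × n` matrix. -/
def PosCert.ok (C : PosCert) (n : ℕ) (e : ℕ → ℕ → ℚ) : Bool :=
  decide (C.M.length = n) && decide ((n : ℤ) < C.K) && PSD.psdCheck C.M C.L C.D C.c &&
    (List.range n).all fun i => decide (0 < C.sc.getD i 0) &&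
      (List.range n).all fun j =>
        let v := e i j * C.sc.getD i 0 * C.sc.getD j 0 -
          ((PSD.entry C.M i j + if i = j then C.K else 0 : ℤ) : ℚ)
        decide (-1 ≤ v) && decide (v ≤ 1)

/-- The entries of the planar block. -/
def Blk.entry (B : Blk) (a b : ℕ) : ℚ :=
  B.s * qEntry B.GJ a b + qEntry B.U 3 a * qEntry B.U 3 b / (2 * ((B.m - 1).factorial : ℚ))
    + 2 * ((List.range RL.length).map fun i => qEntry B.U (4 + i) a * qEntry B.XU i b).sum
    + ((List.range 4).map fun k =>
        if penOn B.m (penIdx.getD k none) then B.lam.getD k 0 * qEntry B.U k a * qEntry B.U k b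
        else 0).sum

/-- A channel index is at most the degree. -/
def idxLe (m : ℕ) : Option ℕ → Bool
  | some r => decide (r ≤ m)
  | none => true

/-- The tables agree with the planar limits. -/
def Blk.tablesOk (B : Blk) : Bool :=
  let n := B.J.length
  ((List.range rowIdx.length).all fun i => (List.range n).all fun b =>
    !idxLe B.m (rowIdx.getD i none) ||
      decide (qEntry B.U i b = pGam B.m (rowIdx.getD i none) (B.J.getD b none))) &&
  ((List.range RL.length).all fun i => (List.range n).all fun b =>
    decide (qEntry B.XU i b =
      ((List.range RL.length).map fun j => pX B.m i j * qEntry B.U (4 + j) b).sum)) &&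
  ((List.range n).all fun a => (List.range n).all fun b =>
    decide (qEntry B.GJ a b = pGam B.m (B.J.getD a none) (B.J.getD b none)))

/-- The whole check of one degree. -/
def Blk.ok (B : Blk) : Bool :=
  decide (1 ≤ B.m) && decide (0 ≤ B.s) && decide B.J.Nodup &&
  B.J.all (idxLe B.m) &&
  B.tablesOk && B.block.ok B.J.length B.entry &&
  (match B.gram with
    | some C => decide (B.J.length = (B.m + 1) / 2) && C.ok B.J.length (qEntry B.GJ)
    | none => rowIdx.all fun a => !idxLe B.m a || B.J.contains a)

end Vale.Agent.P359.Gap.Cert
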