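import Vale.Agent.P359.Gap.Cert.Check

/-!
# P359, gap: quickly evaluated forms of the planar tables

The planar overlaps times `18 ^ (r + q)` are integers.
-/

namespace Vale.Agent.P359.Gap.Cert

open Finset

/-- A binomial coefficient in a form that evaluates quickly. -/
def fch (n k : ℕ) : ℕ := n.descFactorial k / k.factorial

theorem fch_eq (n k : ℕ) : fch n k = n.choose k :=
  (Nat.choose_eq_descFactorial_div_factorial n k).symm

/-- One term of `18 ^ (r + q) * Planar.G`, before the factorials. -/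
def gT (r q r' i : ℕ) : ℤ :=
  if r' ≤ q + i then
    let t : ℕ := fch r i * fch q (r' - i) * (9 ^ i * 24 ^ (r + r' - 2 * i) * 8 ^ (q + i - r'))
    if (q + i - r') % 2 = 0 then (t : ℤ) else -(t : ℤ)
  else 0

/-- `18 ^ (r + q) * Planar.G`. -/
def gI (r q r' q' : ℕ) : ℤ :=
  if r + q = r' + q' then
    ((r'.factorial * q'.factorial : ℕ) : ℤ) *
      ((List.range (min r r' + 1)).map fun i => gT r q r' i).sum
  else 0

/-- `18 ^ (r + q) * Planar.N`. -/
def nI (r q : ℕ) : ℕ := r.factorial * 27 ^ r * (q.factorial * 24 ^ q)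

/-- `18 ^ (r + q) * Planar.p`. -/
def pI (r q : ℕ) : ℤ := (((r + q - 1).factorial * 12 ^ q * 18 ^ r : ℕ) : ℤ) * (2 * (q : ℤ) - r)

theorem gT_eq {r q r' i : ℕ} (hi : i ≤ min r r') :
    (gT r q r' i : ℚ) =
      (if r' ≤ q + i then
        (r.choose i : ℚ) * (q.choose (r' - i) : ℚ) * (1 / 2) ^ i *
          (4 / 3) ^ (r + r' - 2 * i) * (-4 / 9) ^ (q + i - r')
      else 0) * 18 ^ (r + q) := by
  have hi1 : i ≤ r := hi.trans (min_le_left _ _)
  have hi2 : i ≤ r' := hi.trans (min_le_right _ _)
  unfold gT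
  by_cases h : r' ≤ q + i
  · rw [if_pos h, if_pos h, show r + q = i + (r + r' - 2 * i) + (q + i - r') by omega]
    set u := r + r' - 2 * i
    set v := q + i - r'
    have e : ((1 : ℚ) / 2) ^ i * (4 / 3) ^ u * (-4 / 9) ^ v * 18 ^ (i + u + v) =
        (-1) ^ v * ((9 : ℚ) ^ i * 24 ^ u * 8 ^ v) := by
      rw [pow_add, pow_add, show (-4 / 9 : ℚ) = (-1) * (4 / 9) by norm_num, mul_pow (-1 : ℚ)]
      have h1 : ((1 : ℚ) / 2) ^ i * 18 ^ i = 9 ^ i := by rw [← mul_pow]; norm_num
      have h2 : ((4 : ℚ) / 3) ^ u * 18 ^ u = 24 ^ u := by rw [← mul_pow]; norm_num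
      have h3 : ((4 : ℚ) / 9) ^ v * 18 ^ v = 8 ^ v := by rw [← mul_pow]; norm_num
      rw [← h1, ← h2, ← h3]; ring
    have e2 : (r.choose i : ℚ) * (q.choose (r' - i) : ℚ) * (1 / 2) ^ i * (4 / 3) ^ u *
        (-4 / 9) ^ v * 18 ^ (i + u + v) =
        (r.choose i : ℚ) * (q.choose (r' - i) : ℚ) * ((-1) ^ v * (9 ^ i * 24 ^ u * 8 ^ v)) := by
      rw [← e]; ring
    rw [e2, fch_eq, fch_eq]
    rcases Nat.even_or_odd v with hv | hv
    · rw [if_pos (Nat.even_iff.1 hv), hv.neg_one_pow]; push_cast; ring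
    · rw [if_neg (by rw [Nat.odd_iff.1 hv]; decide), hv.neg_one_pow]; push_cast; ring
  · simp [h]

theorem gI_eq (r q r' q' : ℕ) :
    Planar.G r q r' q' = (gI r q r' q' : ℚ) / 18 ^ (r + q) := by
  unfold gI Planar.G
  by_cases h : r + q = r' + q'
  · rw [if_pos h, if_pos h, eq_div_iff (by positivity),
      show ((List.range (min r r' + 1)).map fun i => gT r q r' i).sum =
        (Finset.range (min r r' + 1)).sum (fun i => gT r q r' i) from rfl]
    push_cast
    rw [mul_assoc]
    congr 1
    rw [Finset.sum_mul]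
    refine Finset.sum_congr rfl fun i hi => ?_
    rw [gT_eq (Nat.lt_succ_iff.1 (Finset.mem_range.1 hi))]
  · simp [h]

theorem nI_eq (r q : ℕ) : Planar.N r q = (nI r q : ℚ) / 18 ^ (r + q) := by
  rw [eq_div_iff (by positivity), Planar.N, nI, pow_add]
  have h1 : ((3 : ℚ) / 2) ^ r * 18 ^ r = 27 ^ r := by rw [← mul_pow]; norm_num
  have h2 : ((4 : ℚ) / 3) ^ q * 18 ^ q = 24 ^ q := by rw [← mul_pow]; norm_num
  push_cast
  rw [← h1, ← h2]; ring

theorem pI_eq (r q : ℕ) : Planar.p r q = (pI r q : ℚ) / 18 ^ (r + q) := by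
  rw [eq_div_iff (by positivity), Planar.p, pI, pow_add]
  have h2 : ((2 : ℚ) / 3) ^ q * 18 ^ q = 12 ^ q := by rw [← mul_pow]; norm_num
  push_cast
  rw [← h2]; ring

/-- Fast form of `pGam`. -/
def fGam (m : ℕ) : Option ℕ → Option ℕ → ℚ
  | some r, some r' =>
      mkRat ((if r = r' then (nI r (m - r) : ℤ) else 0) - gI r (m - r) r' (m - r'))
        (2 * 18 ^ (r + (m - r)))
  | some r, none => mkRat (pI r (m - r)) (18 ^ (r + (m - r)))
  | none, some r => mkRat (pI r (m - r)) (18 ^ (r + (m - r)))
  | none, none => ((2 * (m - 1).factorial : ℕ) : ℚ)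

theorem fGam_eq (m : ℕ) (a b : Option ℕ) : fGam m a b = pGam m a b := by
  rcases a with _ | r <;> rcases b with _ | r'
  · simp [fGam, pGam]
  · simp [fGam, pGam, Rat.mkRat_eq_div, pI_eq]
  · simp [fGam, pGam, Rat.mkRat_eq_div, pI_eq]
  · simp only [fGam, pGam, Rat.mkRat_eq_div, gI_eq, nI_eq]
    push_cast
    split_ifs with h
    · subst h; field_simp
    · field_simp; ring

/-- The numerator of `pX`. -/
def xNum (m r r' a b : ℕ) : ℤ :=
  ((List.range 9).map fun i =>
    if 0 ≤ (r : ℤ) + NL.getD i 0 ∧ 0 ≤ (r' : ℤ) + NL.getD i 0 then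
      ((ctabs.getD i []).getD a []).getD b 0 *
        gI ((r : ℤ) + NL.getD i 0).toNat (m - r) ((r' : ℤ) + NL.getD i 0).toNat (m - r') *
        (18 ^ (5 - NL.getD i 0).toNat : ℕ)
    else 0).sum

/-- Fast form of `pX`. -/
def fX (m a b : ℕ) : ℚ :=
  let r := RL.getD a 0
  let r' := RL.getD b 0
  if r ≤ m ∧ r' ≤ m then
    mkRat (xNum m r r' a b * (18 ^ m : ℕ))
      (4503599627370496 * 18 ^ 5 * nI r (m - r) * nI r' (m - r'))
  else 0

theorem fX_eq (m a b : ℕ) : fX m a b = pX m a b := by
  simp only [fX, pX]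
  set r := RL.getD a 0
  set r' := RL.getD b 0
  by_cases h : r ≤ m ∧ r' ≤ m
  · rw [if_pos h, if_pos h, Rat.mkRat_eq_div, xNum]
    push_cast [List.map_map]
    rw [mul_div_assoc, ← List.sum_map_mul_right]
    refine congrArg List.sum (List.map_congr_left fun i hi => ?_)
    have hn : -5 ≤ NL.getD i 0 ∧ NL.getD i 0 ≤ 5 := by
      have hi' := List.mem_range.1 hi
      interval_cases i <;> simp [NL]
    simp only [Function.comp_apply]
    set n := NL.getD i 0
    split_ifs with hp
    · push_cast
      rw [gI_eq, nI_eq, nI_eq, show r + (m - r) = m by omega, show r' + (m - r') = m by omega,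
        cTab]
      have hk : (r + n).toNat + (m - r) + (5 - n).toNat = m + 5 := by omega
      have e : (18 : ℚ) ^ ((r + n).toNat + (m - r)) * 18 ^ (5 - n).toNat = 18 ^ m * 18 ^ 5 := by
        rw [← pow_add, ← pow_add, hk]
      have hN : ∀ r q, (nI r q : ℚ) ≠ 0 := fun r q => by
        have : 0 < nI r q := by unfold nI; positivity
        exact_mod_cast this.ne'
      have h1 := hN r (m - r)
      have h2 := hN r' (m - r')
      field_simp
      linear_combination 4503599627370496 * ((((ctabs.getD i []).getD a []).getD b 0 : ℤ) : ℚ) *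
        (gI (r + n).toNat (m - r) (r' + n).toNat (m - r') : ℚ) * e
    · simp
  · simp [h]

/-- A table of planar overlaps. -/
def gTab (m : ℕ) (R J : List (Option ℕ)) : List (List ℚ) := R.map fun a => J.map (fGam m a)

/-- The table `X * U` of one degree. -/
def xTab (m : ℕ) (X : List (List ℚ)) (J : List (Option ℕ)) : List (List ℚ) :=
  (List.range RL.length).map fun i => (List.range J.length).map fun b =>
    ((List.range RL.length).map fun j => qEntry X i j * qEntry (gTab m rowIdx J) (4 + j) b).sum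

/-- The table of cross terms agrees with `fX`. -/
def xOk (m : ℕ) (X : List (List ℚ)) : Bool :=
  (List.range RL.length).all fun i => (List.range RL.length).all fun j =>
    decide (qEntry X i j = fX m i j)

/-- A block with computed tables and `s = snum / 2 ^ 60`. -/
def mkBlk (m snum : ℕ) (X : List (List ℚ)) (J : List (Option ℕ)) (lam : List ℚ) (block : PosCert)
    (gram : Option PosCert) : Blk where
  m := m
  s := (snum : ℚ) / 2 ^ 60
  J := J
  lam := lam
  U := gTab m rowIdx J
  XU := xTab m X J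
  GJ := gTab m J J
  block := block
  gram := gram

/-- The check of a block whose tables are computed. -/
def fastOk (B : Blk) : Bool :=
  decide (1 ≤ B.m) && decide B.J.Nodup && B.J.all (idxLe B.m) &&
  B.block.ok B.J.length B.entry &&
  (match B.gram with
    | some C => decide (B.J.length = (B.m + 1) / 2) && C.ok B.J.length (qEntry B.GJ)
    | none => rowIdx.all fun a => !idxLe B.m a || B.J.contains a)

theorem qEntry_map {α β : Type} (R : List α) (J : List β) (f : α → β → ℚ) (d : α) (e : β)
    {i j : ℕ} (hi : i < R.length) (hj : j < J.length) :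
    qEntry (R.map fun a => J.map (f a)) i j = f (R.getD i d) (J.getD j e) := by
  simp [qEntry, List.getD_eq_getElem?_getD, hi, hj]

theorem mkBlk_ok {m snum : ℕ} {X : List (List ℚ)} {J : List (Option ℕ)} {lam : List ℚ}
    {b : PosCert} {g : Option PosCert} (hX : xOk m X = true)
    (h : fastOk (mkBlk m snum X J lam b g) = true) :
    (mkBlk m snum X J lam b g).ok = true := by
  have hT : (mkBlk m snum X J lam b g).tablesOk = true := by
    simp only [Blk.tablesOk, mkBlk, gTab, xTab, Bool.and_eq_true, List.all_eq_true, List.mem_range,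
      Bool.or_eq_true]
    refine ⟨⟨fun i hi j hj => Or.inr ?_, fun i hi j hj => ?_⟩, fun i hi j hj => ?_⟩
    · refine decide_eq_true ?_
      rw [qEntry_map _ _ _ none none hi hj, fGam_eq]
    · refine decide_eq_true ?_
      rw [qEntry_map _ _ _ 0 0 (by simpa using hi) (by simpa using hj)]
      simp only [xOk, List.all_eq_true, List.mem_range, decide_eq_true_eq] at hX
      simp only [List.getD_eq_getElem?_getD, List.getElem?_range hi, List.getElem?_range hj,
        Option.getD_some]
      refine congrArg List.sum (List.map_congr_left fun k hk => ?_)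
      rw [hX i hi k (List.mem_range.1 hk), fX_eq]
    · refine decide_eq_true ?_
      rw [qEntry_map _ _ _ none none hi hj, fGam_eq]
  have hs : 0 ≤ (mkBlk m snum X J lam b g).s := by
    show 0 ≤ (snum : ℚ) / 2 ^ 60
    positivity
  simp only [fastOk, Bool.and_eq_true, decide_eq_true_eq] at h
  simp only [Blk.ok, hT, hs, Bool.and_eq_true, decide_eq_true_eq]
  tauto

end Vale.Agent.P359.Gap.Cert
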