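import Vale.Agent.P359.Gap.Core
import Vale.Agent.P359.Gap.Cert.Data

/-!
# P359, gap: the squares of the certificate
-/

namespace Vale.Agent.P359.Gap.Cert

/-- Coefficient of channel `r`. -/
def bVal (d : SqD) (r : ℕ) : ℚ := ((RL.zip d.b).lookup r).getD 0

/-- The square with this data. -/
noncomputable def SqD.toSq (d : SqD) : Sq where
  n := d.n
  z := (d.z : ℝ)
  S := (RL.filter fun r : ℕ => decide (0 ≤ (r : ℤ) + d.n)).toFinset
  β r := (bVal d r : ℝ)

/-- All squares of the certificate. -/
noncomputable def certSq : List Sq := sqD.map SqD.toSq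

/-- Checked properties of the data. -/
theorem data_ok : sqD.length = 99 ∧ sqD.all (fun d => decide (-3 ≤ d.n) && decide (d.n ≤ 5) &&
    (decide (d.n = 0) || decide (d.z = 0)) &&
    d.b.all (fun x => decide (-4 ≤ x) && decide (x ≤ 4))) = true := by
  decide +kernel

end Vale.Agent.P359.Gap.Cert
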